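import Vale.Agent.P031.Main

/-!
# P031, second question (Erdős–Hall): `V(cx)/V(x) → c`

`V x` counts the natural numbers `v` with `1 ≤ v ≤ x` that are values of Euler's function.
-/

open Filter Topology

namespace Vale.Agent.Results.P031.ErdosHallRatio

open Classical in
/-- The number of values of Euler's function in `[1, x]`. -/
noncomputable def totientCount (x : ℝ) : ℕ :=
  ((Finset.Icc 1 ⌊x⌋₊).filter fun v => ∃ n : ℕ, Nat.totient n = v).card

lemma totientCount_eq (x : ℝ) : totientCount x = Vale.Agent.P031.V x := by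
  classical
  unfold totientCount Vale.Agent.P031.V Vale.Agent.P031.totSet
  refine congrArg Finset.card (Finset.filter_congr fun v hv => ?_)
  rw [Finset.mem_Icc] at hv
  constructor
  · rintro ⟨n, hn⟩
    refine ⟨n, Nat.pos_of_ne_zero ?_, hn⟩
    rintro rfl
    simp at hn
    omega
  · rintro ⟨n, -, hn⟩
    exact ⟨n, hn⟩

theorem result : ∀ c : ℝ, 1 < c →
    Tendsto (fun x : ℝ => (totientCount (c * x) : ℝ) / (totientCount x : ℝ)) atTop (𝓝 c) := by
  intro c hc
  simp only [totientCount_eq]
  exact Vale.Agent.P031.ratio_tendsto c hc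

end Vale.Agent.Results.P031.ErdosHallRatio
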